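import Mathlib

namespace Vale.Agent.H29.BlochDefs

open Matrix

/-- Third spin matrix for spin `S = J / 2`; the basis label `a` has `S³ = J / 2 - a`. -/
noncomputable def s3 (J : ℕ) : Matrix (Fin (J + 1)) (Fin (J + 1)) ℂ :=
  diagonal fun a => (((J : ℝ) / 2 - ((a : ℕ) : ℝ) : ℝ) : ℂ)

/-- Raising matrix `S⁺ = S¹ + i S²`. -/
noncomputable def sPlus (J : ℕ) : Matrix (Fin (J + 1)) (Fin (J + 1)) ℂ :=
  fun i j => if (i : ℕ) + 1 = (j : ℕ) then
    ((Real.sqrt (((j : ℕ) : ℝ) * ((J : ℝ) + 1 - ((j : ℕ) : ℝ))) : ℝ) : ℂ) else 0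

/-- First spin matrix `(S⁺ + S⁻) / 2`. -/
noncomputable def s1 (J : ℕ) : Matrix (Fin (J + 1)) (Fin (J + 1)) ℂ :=
  (1 / 2 : ℂ) • (sPlus J + (sPlus J)ᴴ)

/-- Second spin matrix `(S⁺ - S⁻) / (2 i)`. -/
noncomputable def s2 (J : ℕ) : Matrix (Fin (J + 1)) (Fin (J + 1)) ℂ :=
  (1 / (2 * Complex.I) : ℂ) • (sPlus J - (sPlus J)ᴴ)

/-- The box `{-N, …, N}³`, shifted to `{0, …, 2N}³`. -/
abbrev Box (N : ℕ) : Type := Fin 3 → Fin (2 * N + 1)

/-- Basis labels of the many-spin Hilbert space on a finite set `V` of sites. -/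
abbrev Conf (J : ℕ) (V : Type) : Type := V → Fin (J + 1)

/-- The operator `A` acting at the site `x` (identity elsewhere). -/
def onSite {J : ℕ} {V : Type} [Fintype V] [DecidableEq V] (x : V)
    (A : Matrix (Fin (J + 1)) (Fin (J + 1)) ℂ) : Matrix (Conf J V) (Conf J V) ℂ :=
  fun σ τ => if ∀ y, y ≠ x → σ y = τ y then A (σ x) (τ x) else 0

/-- `S_x · S_y`. -/
noncomputable def dotSS (J : ℕ) {V : Type} [Fintype V] [DecidableEq V] (x y : V) :
    Matrix (Conf J V) (Conf J V) ℂ :=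
  onSite x (s1 J) * onSite y (s1 J) + onSite x (s2 J) * onSite y (s2 J)
    + onSite x (s3 J) * onSite y (s3 J)

/-- `y` is the neighbour `x + e_j` of `x` in the box. -/
def Step {N : ℕ} (j : Fin 3) (x y : Box N) : Prop :=
  ((y j : Fin (2 * N + 1)) : ℕ) = (x j : ℕ) + 1 ∧ ∀ i, i ≠ j → y i = x i

instance {N : ℕ} (j : Fin 3) (x y : Box N) : Decidable (Step j x y) := by
  unfold Step; infer_instance

/-- The Heisenberg Hamiltonian on the box with free boundary conditions; every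
nearest-neighbour edge `{x, x + e_j}` is counted once. -/
noncomputable def ham (J N : ℕ) : Matrix (Conf J (Box N)) (Conf J (Box N)) ℂ :=
  -∑ j : Fin 3, ∑ x : Box N, ∑ y : Box N, if Step j x y then dotSS J x y else 0

/-- Total magnetization in direction 3. -/
noncomputable def mag (J N : ℕ) : Matrix (Conf J (Box N)) (Conf J (Box N)) ℂ :=
  ∑ x : Box N, onSite x (s3 J)

/-- Finite-volume pressure `(1 / (β |Λ|)) log Tr exp (-β (H - h M))`. -/
noncomputable def presN (J N : ℕ) (β h : ℝ) : ℝ :=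
  1 / (β * (2 * (N : ℝ) + 1) ^ 3) *
    Real.log (Matrix.trace (NormedSpace.exp (-((β : ℂ) • (ham J N - (h : ℂ) • mag J N))))).re

/-- The pressure in infinite volume (as a limsup, equal to the limit when it exists). -/
noncomputable def pres (J : ℕ) (β h : ℝ) : ℝ :=
  Filter.limsup (fun N : ℕ => presN J N β h) Filter.atTop

/-- Spontaneous magnetization: right derivative of the pressure at zero field. -/
noncomputable def spMag (J : ℕ) (β : ℝ) : ℝ := derivWithin (pres J β) (Set.Ioi 0) 0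

end Vale.Agent.H29.BlochDefs
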